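import Vale.Agent.P272.GJ.Green

/-!
# P272 / XJ: the Green formula on a disc with the polynomial weight

`∫_{|z|<r} ((r² - |z|²)/π) ∂_z∂_{z̄} φ dA = r² (average of φ over |z| = r) - ∫_{|z|<r} φ/π dA`.
-/

open MeasureTheory Set Metric Complex
open scoped Real Topology

noncomputable section

namespace Vale.Agent.P272.XJ

open Vale.Agent.P272.GJ

/-- the weight `(r² - |z|²)/π` -/
def wt (r : ℝ) (z : ℂ) : ℝ := (r ^ 2 - ‖z‖ ^ 2) / π

section
variable {φ : ℂ → ℝ} {r : ℝ}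

/-- the fundamental theorem of calculus on a radius, polynomial weight -/
lemma radial_wt (hr : 0 < r) (hφ : ∀ z ∈ closedBall (0 : ℂ) r, ContDiffAt ℝ 2 φ z) (θ : ℝ) :
    ∫ ρ in (0 : ℝ)..r, ((r ^ 2 - ρ ^ 2) * (fderiv ℝ φ (pt ρ θ) (exp (θ * I)) +
      ρ * fderiv ℝ (fderiv ℝ φ) (pt ρ θ) (exp (θ * I)) (exp (θ * I))) + 4 * ρ * φ (pt ρ θ)) =
      2 * r ^ 2 * φ (pt r θ) := by
  set e : ℂ := exp (θ * I) with he
  have hmaps : MapsTo (fun ρ => pt ρ θ) (Icc 0 r) (closedBall (0 : ℂ) r) := fun ρ hρ =>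
    pt_mem hρ.1 hρ.2 θ
  have hcpt : Continuous fun ρ => pt ρ θ := by unfold pt; fun_prop
  have c0 : ContinuousOn (fun ρ => φ (pt ρ θ)) (Icc 0 r) :=
    (contOn0 hφ).comp hcpt.continuousOn hmaps
  have c1 : ContinuousOn (fun ρ => fderiv ℝ φ (pt ρ θ)) (Icc 0 r) :=
    (contOn1 hφ).comp hcpt.continuousOn hmaps
  have c2 : ContinuousOn (fun ρ => fderiv ℝ (fderiv ℝ φ) (pt ρ θ)) (Icc 0 r) :=
    (contOn2 hφ).comp hcpt.continuousOn hmaps
  set h : ℝ → ℝ := fun ρ => (r ^ 2 * ρ - ρ ^ 3) * fderiv ℝ φ (pt ρ θ) e +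
    2 * ρ ^ 2 * φ (pt ρ θ) with hh
  have hcont : ContinuousOn h (Icc 0 r) := by
    have h1 : Continuous fun ρ : ℝ => r ^ 2 * ρ - ρ ^ 3 := by fun_prop
    have h2 : Continuous fun ρ : ℝ => 2 * ρ ^ 2 := by fun_prop
    exact (h1.continuousOn.mul (c1.clm_apply continuousOn_const)).add (h2.continuousOn.mul c0)
  have hder : ∀ ρ ∈ Ioo 0 r, HasDerivAt h ((r ^ 2 - ρ ^ 2) * (fderiv ℝ φ (pt ρ θ) e +
      ρ * fderiv ℝ (fderiv ℝ φ) (pt ρ θ) e e) + 4 * ρ * φ (pt ρ θ)) ρ := by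
    intro ρ hρ
    have hz := hφ _ (hmaps ⟨hρ.1.le, hρ.2.le⟩)
    have d0 : HasDerivAt (fun ρ => φ (pt ρ θ)) (fderiv ℝ φ (pt ρ θ) e) ρ :=
      (hz.differentiableAt (by norm_num)).hasFDerivAt.comp_hasDerivAt ρ (hasDerivAt_pt ρ θ)
    have h1 : DifferentiableAt ℝ (fderiv ℝ φ) (pt ρ θ) :=
      (hz.fderiv_right (m := 1) (by norm_num)).differentiableAt (by norm_num)
    have d1' : HasDerivAt (fun ρ => fderiv ℝ φ (pt ρ θ)) (fderiv ℝ (fderiv ℝ φ) (pt ρ θ) e) ρ :=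
      h1.hasFDerivAt.comp_hasDerivAt ρ (hasDerivAt_pt ρ θ)
    have d1 : HasDerivAt (fun ρ => fderiv ℝ φ (pt ρ θ) e)
        (fderiv ℝ (fderiv ℝ φ) (pt ρ θ) e e) ρ := by
      simpa using d1'.clm_apply (hasDerivAt_const ρ e)
    have dl : HasDerivAt (fun ρ : ℝ => r ^ 2 * ρ - ρ ^ 3) (r ^ 2 - 3 * ρ ^ 2) ρ := by
      have a1 : HasDerivAt (fun ρ : ℝ => r ^ 2 * ρ) (r ^ 2 * 1) ρ :=
        (hasDerivAt_id ρ).const_mul _
      have a2 := hasDerivAt_pow 3 ρ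
      refine (a1.fun_sub a2).congr_deriv ?_
      norm_num
    have dq : HasDerivAt (fun ρ : ℝ => 2 * ρ ^ 2) (4 * ρ) ρ := by
      refine ((hasDerivAt_pow 2 ρ).const_mul 2).congr_deriv ?_
      ring
    have := (dl.mul d1).add (dq.mul d0)
    refine this.congr_deriv ?_
    ring
  have hint : IntervalIntegrable (fun ρ => (r ^ 2 - ρ ^ 2) * (fderiv ℝ φ (pt ρ θ) e +
      ρ * fderiv ℝ (fderiv ℝ φ) (pt ρ θ) e e) + 4 * ρ * φ (pt ρ θ)) volume 0 r := by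
    refine ContinuousOn.intervalIntegrable ?_
    rw [uIcc_of_le hr.le]
    have h1 : Continuous fun ρ : ℝ => r ^ 2 - ρ ^ 2 := by fun_prop
    have h2 : Continuous fun ρ : ℝ => 4 * ρ := by fun_prop
    exact (h1.continuousOn.mul ((c1.clm_apply continuousOn_const).add
      (continuousOn_id.mul ((c2.clm_apply continuousOn_const).clm_apply continuousOn_const)))).add
      (h2.continuousOn.mul c0)
  rw [intervalIntegral.integral_eq_sub_of_hasDerivAt_of_le hr.le hcont hder hint]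
  simp only [hh]
  ring

/-- **Green's formula with the weight `(r² - |z|²)/π`.** -/
theorem green_wt (hr : 0 < r) (hφ : ∀ z ∈ closedBall (0 : ℂ) r, ContDiffAt ℝ 2 φ z) :
    ∫ z in ball (0 : ℂ) r, wt r z * ddb φ z =
      r ^ 2 * Real.circleAverage φ 0 r - ∫ z in ball (0 : ℂ) r, φ z / π := by
  set e : ℝ → ℂ := fun θ => exp (θ * I) with he
  have hce : Continuous e := by fun_prop
  set A : ℝ × ℝ → ℝ := fun p => fderiv ℝ φ (pt p.1 p.2) (e p.2) with hA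
  set B : ℝ × ℝ → ℝ := fun p => fderiv ℝ (fderiv ℝ φ) (pt p.1 p.2) (e p.2) (e p.2) with hB
  set C : ℝ × ℝ → ℝ := fun p => fderiv ℝ (fderiv ℝ φ) (pt p.1 p.2) (I * e p.2) (I * e p.2) with hC
  have c0' := contOn_pt_prod (contOn0 hφ)
  have c1 := contOn_pt_prod (contOn1 hφ)
  have c2 := contOn_pt_prod (contOn2 hφ)
  have ce2 : Continuous fun p : ℝ × ℝ => e p.2 := hce.comp continuous_snd
  have cA : ContinuousOn A (Icc 0 r ×ˢ Icc (-π) π) := c1.clm_apply ce2.continuousOn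
  have cB : ContinuousOn B (Icc 0 r ×ˢ Icc (-π) π) :=
    (c2.clm_apply ce2.continuousOn).clm_apply ce2.continuousOn
  have cC : ContinuousOn C (Icc 0 r ×ˢ Icc (-π) π) :=
    (c2.clm_apply (continuous_const.mul ce2).continuousOn).clm_apply
      (continuous_const.mul ce2).continuousOn
  have hms : MeasurableSet (Ioo (0:ℝ) r ×ˢ Ioo (-π) π) := measurableSet_Ioo.prod measurableSet_Ioo
  have hsub : Ioo (0:ℝ) r ×ˢ Ioo (-π) π ⊆ Icc 0 r ×ˢ Icc (-π) π :=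
    prod_mono Ioo_subset_Icc_self Ioo_subset_Icc_self
  have hcompact : IsCompact (Icc (0:ℝ) r ×ˢ Icc (-π) π) := isCompact_Icc.prod isCompact_Icc
  have cq : Continuous fun p : ℝ × ℝ => r ^ 2 - p.1 ^ 2 := by fun_prop
  have cc1 : ContinuousOn (fun p : ℝ × ℝ => (r ^ 2 - p.1 ^ 2) * (A p + p.1 * B p) +
      4 * p.1 * φ (pt p.1 p.2)) (Icc 0 r ×ˢ Icc (-π) π) :=
    (cq.continuousOn.mul (cA.add (continuousOn_fst.mul cB))).add
      ((continuousOn_const.mul continuousOn_fst).mul c0')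
  have cc2 : ContinuousOn (fun p : ℝ × ℝ => (r ^ 2 - p.1 ^ 2) * (p.1 * C p - A p))
      (Icc 0 r ×ˢ Icc (-π) π) :=
    cq.continuousOn.mul ((continuousOn_fst.mul cC).sub cA)
  have cc3 : ContinuousOn (fun p : ℝ × ℝ => 4 * p.1 * φ (pt p.1 p.2)) (Icc 0 r ×ˢ Icc (-π) π) :=
    (continuousOn_const.mul continuousOn_fst).mul c0'
  have i1 : IntegrableOn (fun p : ℝ × ℝ => (r ^ 2 - p.1 ^ 2) * (A p + p.1 * B p) +
      4 * p.1 * φ (pt p.1 p.2)) (Ioo 0 r ×ˢ Ioo (-π) π) (volume.prod volume) :=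
    (cc1.integrableOn_compact hcompact).mono_set hsub
  have i2 : IntegrableOn (fun p : ℝ × ℝ => (r ^ 2 - p.1 ^ 2) * (p.1 * C p - A p))
      (Ioo 0 r ×ˢ Ioo (-π) π) (volume.prod volume) :=
    (cc2.integrableOn_compact hcompact).mono_set hsub
  have i3 : IntegrableOn (fun p : ℝ × ℝ => 4 * p.1 * φ (pt p.1 p.2))
      (Ioo 0 r ×ˢ Ioo (-π) π) (volume.prod volume) :=
    (cc3.integrableOn_compact hcompact).mono_set hsub
  have hpi0 : (π : ℝ) ≠ 0 := Real.pi_ne_zero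
  have key : ∀ p ∈ Ioo (0:ℝ) r ×ˢ Ioo (-π) π, p.1 • (wt r (pt p.1 p.2) * ddb φ (pt p.1 p.2)) =
      (4 * π)⁻¹ * (((r ^ 2 - p.1 ^ 2) * (A p + p.1 * B p) + 4 * p.1 * φ (pt p.1 p.2) +
        (r ^ 2 - p.1 ^ 2) * (p.1 * C p - A p)) - 4 * p.1 * φ (pt p.1 p.2)) := by
    intro p hp
    have hz := hφ _ (pt_mem hp.1.1.le hp.1.2.le p.2)
    have h4 := ddb_eq_rot hz p.2
    rw [smul_eq_mul, wt, norm_pt, abs_of_pos hp.1.1]
    simp only [hA, hB, hC, he]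
    field_simp
    linear_combination ((r ^ 2 - p.1 ^ 2) * p.1) * h4
  have hr' : (0:ℝ) ≤ r := hr.le
  have hpi : -π ≤ π := by linarith [Real.pi_pos]
  have key3 : ∫ z in ball (0 : ℂ) r, φ z / π = (4 * π)⁻¹ *
      ∫ p in Ioo (0:ℝ) r ×ˢ Ioo (-π) π, 4 * p.1 * φ (pt p.1 p.2) ∂(volume.prod volume) := by
    rw [setIntegral_ball_polar, Measure.volume_eq_prod, ← integral_const_mul]
    refine setIntegral_congr_fun hms fun p _ => ?_
    simp only [smul_eq_mul]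
    field_simp
  rw [key3, setIntegral_ball_polar, setIntegral_congr_fun hms key]
  have hsum : ∫ p in Ioo (0:ℝ) r ×ˢ Ioo (-π) π, (((r ^ 2 - p.1 ^ 2) * (A p + p.1 * B p) +
      4 * p.1 * φ (pt p.1 p.2) + (r ^ 2 - p.1 ^ 2) * (p.1 * C p - A p)) -
        4 * p.1 * φ (pt p.1 p.2)) ∂(volume.prod volume) =
      (∫ p in Ioo (0:ℝ) r ×ˢ Ioo (-π) π, ((r ^ 2 - p.1 ^ 2) * (A p + p.1 * B p) +
        4 * p.1 * φ (pt p.1 p.2)) ∂(volume.prod volume)) +
      (∫ p in Ioo (0:ℝ) r ×ˢ Ioo (-π) π, (r ^ 2 - p.1 ^ 2) * (p.1 * C p - A p)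
        ∂(volume.prod volume)) -
      ∫ p in Ioo (0:ℝ) r ×ˢ Ioo (-π) π, 4 * p.1 * φ (pt p.1 p.2) ∂(volume.prod volume) := by
    have i12 : Integrable (fun p : ℝ × ℝ => (r ^ 2 - p.1 ^ 2) * (A p + p.1 * B p) +
      4 * p.1 * φ (pt p.1 p.2) + (r ^ 2 - p.1 ^ 2) * (p.1 * C p - A p))
      ((volume.prod volume).restrict (Ioo (0:ℝ) r ×ˢ Ioo (-π) π)) := i1.add i2
    rw [integral_sub i12 i3, integral_add i1 i2]
  rw [Measure.volume_eq_prod, integral_const_mul, hsum]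
  -- the angular part
  have z2 : ∫ p in Ioo (0:ℝ) r ×ˢ Ioo (-π) π, (r ^ 2 - p.1 ^ 2) * (p.1 * C p - A p)
      ∂(volume.prod volume) = 0 := by
    rw [setIntegral_prod _ i2]
    refine (setIntegral_congr_fun measurableSet_Ioo (g := fun _ => (0:ℝ)) fun ρ hρ => ?_).trans
      (by simp)
    have h := angular hφ hρ.1.le hρ.2.le
    rw [intervalIntegral.integral_of_le hpi, integral_Ioc_eq_integral_Ioo] at h
    simp only [hA, hC, he]
    rw [integral_const_mul, h, mul_zero]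
  have z1 : ∫ p in Ioo (0:ℝ) r ×ˢ Ioo (-π) π, ((r ^ 2 - p.1 ^ 2) * (A p + p.1 * B p) +
      4 * p.1 * φ (pt p.1 p.2)) ∂(volume.prod volume) =
      ∫ θ in (-π)..π, 2 * r ^ 2 * φ (pt r θ) := by
    rw [← setIntegral_prod_swap, setIntegral_prod]
    · rw [intervalIntegral.integral_of_le hpi, integral_Ioc_eq_integral_Ioo]
      refine setIntegral_congr_fun measurableSet_Ioo fun θ _ => ?_
      have h := radial_wt hr hφ θ
      rw [intervalIntegral.integral_of_le hr', integral_Ioc_eq_integral_Ioo] at h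
      exact h
    · have := i1
      unfold IntegrableOn at this ⊢
      rw [← Measure.prod_restrict] at this ⊢
      exact this.swap
  rw [z1, z2, add_zero, circleAverage_eq_pi, intervalIntegral.integral_const_mul, mul_sub]
  congr 1
  simp only [smul_eq_mul]
  field_simp
  ring

end

end Vale.Agent.P272.XJ
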